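import Mathlib
import Vale.Agent.H26.P015.Final2
import Vale.Agent.H22.P015.A2
import Vale.Agent.H29.P015.B

namespace Vale.Agent.Results.P015.EveryLine

/-- For every step bound `D` and every direction `w ≠ 0` in `ℤ[i]` there is `c > 0` such that for
every line `z₀ + ℝ w` with `z₀ ∈ ℤ[i]`, every infinite walk through distinct Gaussian primes with
steps of length at most `D` leaves the region `|Y| ≤ exp ((log |X|) ^ c)` around that line
infinitely often, where `X + i Y = (z - z₀) * conj w`. -/
theorem result (D : ℝ) (w : GaussianInt) (hw : w ≠ 0) : ∃ c : ℝ, 0 < c ∧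
    ∀ z₀ : GaussianInt, ∀ v : ℕ → GaussianInt,
    Function.Injective v → (∀ n, Prime (v n)) →
    (∀ n, ‖GaussianInt.toComplex (v (n+1)) - GaussianInt.toComplex (v n)‖ ≤ D) →
    ∀ N, ∃ n, N ≤ n ∧ Real.exp ((Real.log |(((v n - z₀) * star w).re : ℝ)|)^c)
      < |(((v n - z₀) * star w).im : ℝ)| :=
  Vale.Agent.H26.P015.final2
    (Vale.Agent.H29.P015.rowB_of Vale.Agent.H22.P015.rowA) D (star w) (by simpa using hw)

end Vale.Agent.Results.P015.EveryLine
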