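import Vale.Agent.H20.P015.E

/-!
# P015: Gaussian primes near an arbitrary line

For every line `A x + B y = C` of the plane (any real slope):
(1) there are disks of arbitrarily large radius, centred on the line, without Gaussian primes;
(2) there is a function `g` tending to infinity such that, for every `D`, every infinite path
of distinct Gaussian primes with steps at most `D` leaves the region
`{z : dist (z, line) ≤ g |z|}` infinitely often.
-/

open Filter in
theorem Vale.Agent.Results.P015.LinesAvoid.result :
    ∀ A B C : ℝ, (A ≠ 0 ∨ B ≠ 0) →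
      (∀ r : ℝ, ∃ c : ℂ, A * c.re + B * c.im = C ∧
        ∀ w : GaussianInt, Irreducible w → r < ‖(w : ℂ) - c‖) ∧
      ∃ g : ℝ → ℝ, Tendsto g atTop atTop ∧ ∀ (D : ℝ) (z : ℕ → GaussianInt),
        Function.Injective z → (∀ n, Irreducible (z n)) →
        (∀ n, ‖(z (n + 1) : ℂ) - (z n : ℂ)‖ ≤ D) →
        ∃ᶠ n in atTop, g ‖(z n : ℂ)‖ <
          |A * (z n).re + B * (z n).im - C| / √(A ^ 2 + B ^ 2) :=
  fun A B C h => ⟨Vale.Agent.H20.P015.disk_final A B C h, Vale.Agent.H20.P015.walk_final A B C h⟩
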