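import Mathlib
import Vale.Agent.H26.P015.Final
import Vale.Agent.H22.P015.A2
import Vale.Agent.H29.P015.B

namespace Vale.Agent.Results.P015.QuasiPolynomial

/-- For every step bound `D` there is `c > 0` such that every infinite walk through distinct
Gaussian primes with steps of length at most `D` leaves the region
`|Im z| ≤ exp ((log |Re z|) ^ c)` infinitely often. -/
theorem result (D : ℝ) : ∃ c : ℝ, 0 < c ∧ ∀ v : ℕ → GaussianInt,
    Function.Injective v → (∀ n, Prime (v n)) →
    (∀ n, ‖GaussianInt.toComplex (v (n+1)) - GaussianInt.toComplex (v n)‖ ≤ D) →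
    ∀ N, ∃ n, N ≤ n ∧ Real.exp ((Real.log |((v n).re : ℝ)|)^c) < |((v n).im : ℝ)| :=
  Vale.Agent.H26.P015.final
    (Vale.Agent.H29.P015.rowB_of Vale.Agent.H22.P015.rowA) D

end Vale.Agent.Results.P015.QuasiPolynomial
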