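import Mathlib
import Vale.Agent.H23.Moat.B

/-!
P015: no infinite walk with bounded steps through Gaussian primes stays in a thin (unboundedly
widening) neighbourhood of a straight line.
-/

namespace Vale.Agent.Results.P015.ThinNeighbourhoods

/-- Euclidean distance of two Gaussian integers. -/
noncomputable def gd (z w : GaussianInt) : ℝ :=
  √(((z.re - w.re : ℤ) : ℝ) ^ 2 + ((z.im - w.im : ℤ) : ℝ) ^ 2)

/-- An infinite path of the graph `G_D`: a sequence of distinct Gaussian primes whose successive
distances are at most `D`. -/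
def IsPath (D : ℝ) (z : ℕ → GaussianInt) : Prop :=
  Function.Injective z ∧ (∀ n, Irreducible (z n)) ∧ ∀ n, gd (z n) (z (n + 1)) ≤ D

/-- For every straight line `{(x, y) | A x + B y = C}` of the plane (any real slope; `(A, B)` is a
unit vector) and every `D`, no infinite path of `G_D` stays in the region
`{P | dist (P, line) ≤ (1/12) * √(log (2 + |s|))}`, where `s = A y - B x` is the position of the
projection of `P = (x, y)` on the line. In particular no infinite path of `G_D` stays at bounded
distance from a straight line. -/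
theorem result :
    (∀ D A B C : ℝ, A ^ 2 + B ^ 2 = 1 → ¬ ∃ z : ℕ → GaussianInt, IsPath D z ∧
      ∀ n, |A * (z n).re + B * (z n).im - C| ≤
        1 / 12 * √(Real.log (2 + |A * (z n).im - B * (z n).re|))) ∧
    (∀ D A B C W : ℝ, A ^ 2 + B ^ 2 = 1 → ¬ ∃ z : ℕ → GaussianInt, IsPath D z ∧
      ∀ n, |A * (z n).re + B * (z n).im - C| ≤ W) := by
  constructor
  · rintro D A B C hAB ⟨z, ⟨h1, h2, h3⟩, h4⟩
    exact Vale.Agent.H23.Moat.no_path hAB h1 h2 (fun n => h3 n) h4
  · rintro D A B C W hAB ⟨z, ⟨h1, h2, h3⟩, h4⟩
    exact Vale.Agent.H23.Moat.no_path_bounded hAB h1 h2 (fun n => h3 n) h4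

end Vale.Agent.Results.P015.ThinNeighbourhoods
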